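import Vale.Agent.P106.R.E9.SysA
import Vale.Agent.P106.R.H624.BoxB
import Vale.Agent.P106.R.H624.Exc
import Vale.Agent.P106.R.H812.PQ
import Vale.Agent.P106.R.H371.QHalf
import Vale.Agent.P106.R.E3.E3
import Vale.Agent.P106.R.S.Defs

/-! # P106 / R / E9 : E9 from E4 and E8 (helper679) -/

set_option autoImplicit false

namespace Vale.Agent.P106.R.E9

open Vale.Agent.P106.R.E

theorem sigXY : H371.SigXY := fun F _ _ _ hij hj2 hjK hh => SIG.sig_xY F hij hj2 (hij.trans hjK) hh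

/-- **E9** in the form of `S.StE9` -/
theorem stE9_of {A : ℝ} (hA : 0 ≤ A) (h4 : E4 A) (h8 : S.StE8) : S.StE9 A :=
  e9_of hA H624.stExc (H624.stBox H518.e1 E3.e3 h4) H812.stPQ (H371.stQdg_of sigXY) stPch stDE h8

end Vale.Agent.P106.R.E9
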