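import Vale.Agent.P106.R.E9.Spec
import Vale.Agent.P122.H420.Psi

/-! # P106 / R / E9 : existence of the common frame (port of `P122/H420/Psi`, helper420; helper679) -/

set_option autoImplicit false

namespace Vale.Agent.P106.R.E9

open Filter Topology Finset Vale.Agent.P127 Vale.Agent.P127.Stk Vale.Agent.P127.U Vale.Agent.P127.U.Sys
  Vale.Agent.P106.R.C2 Vale.Agent.P106.R.E
open Vale.Agent.P106.W (Cbx)
open Vale.Agent.P122.H420 (sin_tri sin_comm)

variable {K : ℕ} {F : Flg K}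

theorem rare_or {S : Sys} {E E' : ∀ i, S.Ω i → Prop} (h : Rare S E) (h' : Rare S E') :
    Rare S fun i ω => E i ω ∨ E' i ω :=
  Vale.Agent.P122.E.Rare.or h h'

theorem rare_mono {S : Sys} {E E' : ∀ i, S.Ω i → Prop} (hE : Rare S E')
    (h : ∀ᶠ i in (uf : Filter ℕ), ∀ ω, 0 < (S.P i).w ω → E i ω → E' i ω) : Rare S E :=
  Vale.Agent.P122.H540.Rare.mono hE h

/-- `n / L = 1 / K` eventually -/
theorem n_pos (F : Flg K) : ∀ᶠ i in (uf : Filter ℕ), (0 : ℝ) < F.n i ∧ (F.S.L i : ℝ) = K * F.n i := by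
  filter_upwards [F.S.L_pos] with i hi
  have h1 : (0 : ℝ) < F.S.L i := by exact_mod_cast hi
  have h2 : (F.S.L i : ℝ) = K * F.n i := by rw [F.L_eq i]; push_cast; ring
  refine ⟨?_, h2⟩
  rcases Nat.eq_zero_or_pos (F.n i) with h | h
  · rw [h2, h] at h1
    simp at h1
  · exact_mod_cast h

theorem nu_le_of (hK : 1 ≤ K) {m : ℕ → ℕ} {c : ℕ} (hm : ∀ᶠ a in (uf : Filter ℕ), m a ≤ c * F.n a) :
    F.S.nu m ≤ (c : ℝ) / K := by
  have hKp : (0 : ℝ) < K := by exact_mod_cast hK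
  have h1 : ∀ᶠ a in (uf : Filter ℕ), (m a : ℝ) / F.S.L a ≤ (c : ℝ) / K := by
    filter_upwards [n_pos F, hm] with a ha hk
    rw [ha.2, div_le_div_iff₀ (mul_pos hKp ha.1) hKp]
    have : (m a : ℝ) ≤ c * F.n a := by exact_mod_cast hk
    nlinarith
  exact ulim_le_const (UB.of_le (C := (c : ℝ) / K) (Eventually.of_forall fun a => by positivity) h1) h1

/-- **common frame** -/
theorem stPsi {κ C₀ : ℝ} (hκ : κ ≤ 1 / 8) (hC : 8 ≤ C₀) (hx : StExc) (h8 : E8 κ C₀) : StPsi κ C₀ := by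
  intro K F J θ H e W kk jj hK hR c1 i j hc1 hi hij hj2 hjK hh hk hCK hth
  have hK0 : (0 : ℝ) < K := by exact_mod_cast hK
  have h2K : 8 / (K : ℝ) ≤ c1 := (div_le_div_of_nonneg_right hC hK0.le).trans hCK
  have h2 : (8 : ℝ) ≤ c1 * K := by rwa [div_le_iff₀ hK0] at h2K
  -- thin levels are high
  have high : ∀ c, 2 * i - j ≤ c → c ≤ j → c1 * K ≤ 4 * c + 1 := by
    intro c h1 h2'
    have ht := (hth c h1 h2').1
    have he := hx F J θ H e W kk jj hK hR c (h2'.trans hjK)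
    have n1 : F.S.nu (fun a => vx F.h (F.n a) c (kk c a) (jj c a)) ≤ ((4 * c : ℕ) : ℝ) / K := by
      refine nu_le_of hK (Eventually.of_forall fun a => ?_)
      show 2 * c * F.n a - (kk c a + jj c a) + (2 * c * F.n a - (F.h * F.n a + 2 * kk c a)) ≤ 4 * c * F.n a
      have h3 := Nat.sub_le (2 * c * F.n a) (kk c a + jj c a)
      have h4 := Nat.sub_le (2 * c * F.n a) (F.h * F.n a + 2 * kk c a)
      have h5 : 4 * c * F.n a = 2 * c * F.n a + 2 * c * F.n a := by ring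
      omega
    have : c1 ≤ 4 * c / K + 1 / K := by
      push_cast at n1
      linarith
    rw [← add_div, le_div_iff₀ hK0] at this
    exact this
  have hd : ((j : ℝ) - i) ≤ c1 * K / 8 := by
    rw [div_le_iff₀ hK0] at hk
    nlinarith [mul_pos hc1 hK0]
  -- `ψ` from the frame of level `i`
  have c_i : 2 * i - j ≤ i := by omega
  obtain ⟨ψ, p1, -⟩ := h8 F J θ H e W kk jj hK hR c1 i i j hc1 hi le_rfl hij hj2 hjK hh hk hCK
    (hth i c_i hij) (hth i c_i hij)
  refine ⟨ψ, fun c hc hc1' hc2 => ?_⟩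
  rcases le_total i c with hic | hci
  · obtain ⟨ψ', q1, q2⟩ := h8 F J θ H e W kk jj hK hR c1 i c j hc1 hi hic hc2 hj2 hjK hh hk hCK
      (hth i c_i hij) (hth c hc1' hc2)
    refine rare_mono (rare_or (rare_or p1 q1) q2) (Filter.Eventually.of_forall fun a ω _ hb => ?_)
    by_contra hcon
    push Not at hcon
    obtain ⟨⟨g1, g2⟩, g3⟩ := hcon
    have t1 := sin_tri (F.wd c (W c) a ω) (ψ' a (F.sig i j a ω)) (ψ a (F.sig i j a ω))
    have t2 := sin_tri (ψ' a (F.sig i j a ω)) (F.wd i (W i) a ω) (ψ a (F.sig i j a ω))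
    rw [sin_comm (ψ' a (F.sig i j a ω)) (F.wd i (W i) a ω)] at t2
    linarith
  · have hcr : c1 * K ≤ 4 * c + 1 := high c hc1' hc2
    have e0 : ((i : ℝ) - c) ≤ (j : ℝ) - i := by
      have : 2 * i ≤ c + j := by omega
      have : (2 * i : ℝ) ≤ c + j := by exact_mod_cast this
      linarith
    have hic2 : i ≤ 2 * c := by
      have e2 : (1 : ℝ) ≤ c := by exact_mod_cast hc
      have : (i : ℝ) ≤ 2 * c := by linarith
      exact_mod_cast this
    have hk' : ((i : ℝ) - c) / K ≤ κ * c1 := le_trans (div_le_div_of_nonneg_right e0 hK0.le) hk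
    obtain ⟨ψ', q1, q2⟩ := h8 F J θ H e W kk jj hK hR c1 c i i hc1 hc hci le_rfl hic2 (hij.trans hjK) (by omega) hk' hCK
      (hth c hc1' hc2) (hth i c_i hij)
    refine rare_mono (rare_or (rare_or p1 q1) q2) (Filter.Eventually.of_forall fun a ω _ hb => ?_)
    by_contra hcon
    push Not at hcon
    obtain ⟨⟨g1, g2⟩, g3⟩ := hcon
    have t1 := sin_tri (F.wd c (W c) a ω) (ψ' a (F.sig c i a ω)) (ψ a (F.sig i j a ω))
    have t2 := sin_tri (ψ' a (F.sig c i a ω)) (F.wd i (W i) a ω) (ψ a (F.sig i j a ω))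
    rw [sin_comm (ψ' a (F.sig c i a ω)) (F.wd i (W i) a ω)] at t2
    linarith

end Vale.Agent.P106.R.E9
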