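import Vale.Agent.P106.R.E9.Asm
import Vale.Agent.P106.R.H518.E12
import Vale.Agent.P106.R.SIG.Sig
import Vale.Agent.P122.H540.SysA

/-!
# P106 / R / E9 : `StDE`, and the chain of the position `StPch` (port of `P122/H540/SysA`, helper540; helper679)
-/

set_option autoImplicit false

namespace Vale.Agent.P106.R.E9

open Filter Topology Finset Vale.Agent.P127 Vale.Agent.P127.Stk Vale.Agent.P127.U Vale.Agent.P127.U.Sys
  Vale.Agent.P106.R.C2 Vale.Agent.P106.R.E
open Vale.Agent.P106.W (Cbx)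
open Vale.Agent.P106.R.H540 (pdg ndg Pth p_step)
open Vale.Agent.P106.R.H518 (ftr fpr ffst fsnd)
open Vale.Agent.P122.H540 (chain_le)

section flg

variable {K : ℕ} (F : Flg K)

theorem C_nonneg : 0 ≤ F.C := by
  have h := (F.slp 0).colip 0 (fun _ => 0) (fun _ => 0) (Nat.zero_le _)
    (fun k => by simp) (fun k => by simp)
  simpa using h

theorem ev_n : ∀ᶠ a in (uf : Filter ℕ), 1 ≤ F.n a := by
  filter_upwards [F.S.L_pos] with a ha
  rw [F.L_eq a] at ha
  exact Nat.pos_of_mul_pos_left ha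

theorem flg_pth (a : ℕ) (ω : F.S.Ω a) (hω : 0 < (F.S.P a).w ω) :
    Pth (F.n a) K (F.s a) fun c => F.N c a ω where
  step := fun c hc => (F.step a ω hω c hc).2
  par := fun c hc => funext fun k => Vale.Agent.P106.R.H518.kids_div (F.step a ω hω c hc).1 k
  cap := by
    intro c hc
    induction c with
    | zero =>
      intro k
      have h1 := (F.root a ω hω).1
      show 0 ≤ (F.N 0 a ω).τ k ∧ (F.N 0 a ω).τ k < 2 ^ (0 * F.n a)
      rw [h1]
      simp
    | succ c ih =>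
      intro k
      obtain ⟨h0, h1⟩ := ih (by omega) k
      have h2 := Fintype.mem_piFinset.1 (F.step a ω hω c (by omega)).1 k
      rw [Finset.mem_Ico] at h2
      have h3 : (0 : ℤ) < 2 ^ F.n a := by positivity
      refine ⟨(mul_nonneg h3.le h0).trans h2.1, h2.2.trans_le ?_⟩
      have h4 : (2 : ℤ) ^ ((c + 1) * F.n a) = 2 ^ F.n a * 2 ^ (c * F.n a) := by
        rw [← pow_add]
        congr 1
        ring
      rw [h4]
      exact mul_le_mul_of_nonneg_left (by simpa using h1) h3.le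

end flg

/-- **StDE** -/
theorem stDE : StDE := by
  intro K F J θ H e W kk jj hK R i j hi hij hj2 hj hh
  have h := H518.cts hK R
  have h1 := h.En_sub hij hj
  have h2 := h.Cn_ge hij hj
  have e1 : Vale.Agent.P122.H518.Cts.En K H J θ j - Vale.Agent.P122.H518.Cts.En K H J θ i = nE K J θ H j - nE K J θ H i := rfl
  have e2 : Vale.Agent.P122.H518.Cts.Dn F.S K F.N F.T i j = F.D i j := rfl
  rw [e1, e2] at h1
  have tN := h.tre.tN i (hij.trans hj)
  have tT := h.tre.tT (hij.trans hj)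
  have tNj := h.tre.tN j hj
  have h3 : F.S.hc (F.N i) (Sys.pr (F.T i) (F.N j)) ≤ F.S.hc (F.N i) (Sys.pr (F.sig i j) (F.N j)) := by
    have tsig : Tame (F.sig i j) := tN.mono (Eventually.of_forall fun a _ _ _ _ e => by
      have e' : F.N i a _ = F.N i a _ := e
      unfold Flg.sig
      rw [e'])
    have h4 := hc_le_add tN tsig (Sys.pr (F.T i) (F.N j))
    rw [Vale.Agent.P106.R.SIG.sig_TN F hij hj2 hj hh, add_zero] at h4
    refine h4.trans (hc_mono_right tN ?_)
    exact Eventually.of_forall fun a ω ω' _ _ e => by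
      have e1 := congrArg Prod.fst e
      have e2 := congrArg (fun q => q.2.2) e
      exact Prod.ext e1 e2
  have h5 : Vale.Agent.P122.H518.Cts.Cn F.S K F.N F.T i j = 2 * ((j : ℝ) - i) / K -
    F.S.hc (F.N i) (Sys.pr (F.T i) (F.N j)) := rfl
  constructor
  · linarith
  · rw [h5] at h1
    linarith

/-! ### the chain of the position -/

/-- the number of values `2 (2 2^n) + 3` costs at most `4 nm` -/
theorem log_bad_le {K : ℕ} (F : Flg K) {a : ℕ} (hK : 1 ≤ K) (hn : 1 ≤ F.n a) :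
    Real.log ((2 * (2 * 2 ^ F.n a) + 3 : ℕ) : ℝ) ≤ 4 * F.S.nm a := by
  have h0 : (2:ℝ) ≤ 2 ^ F.n a := by
    calc (2:ℝ) = 2 ^ 1 := by norm_num
      _ ≤ 2 ^ F.n a := pow_le_pow_right₀ (by norm_num) hn
  have h1 : (((2 * (2 * 2 ^ F.n a) + 3 : ℕ)) : ℝ) ≤ 2 ^ (F.n a + 3) := by
    push_cast
    rw [pow_add]
    linarith
  have h2 := Real.log_le_log (by positivity) h1
  rw [Real.log_pow] at h2
  refine h2.trans ?_
  have hl : 0 < Real.log 2 := Real.log_pos (by norm_num)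
  rw [Vale.Agent.P122.H540.nm_eq, F.L_eq a]
  push_cast
  have h3 : (1:ℝ) ≤ F.n a := by exact_mod_cast hn
  have h4 : (1:ℝ) ≤ K := by exact_mod_cast hK
  have h5 : (F.n a : ℝ) + 3 ≤ 4 * (K * F.n a) := by nlinarith
  calc ((F.n a : ℝ) + 3) * Real.log 2 ≤ 4 * (K * F.n a) * Real.log 2 :=
        mul_le_mul_of_nonneg_right h5 hl.le
    _ = 4 * (K * F.n a * Real.log 2) := by ring

/-- comparison of the frames `φ c` and `ψ` -/
theorem frame_rare {K : ℕ} {F : Flg K} {J θ H e : ℕ → ℝ} {W : ℕ → F.S.RV Cbx} {kk jj : ℕ → ℕ → ℕ} {κ c1 : ℝ}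
    {φ : ℕ → ℕ → Nd → ℝ} {JF : ℕ → ℝ} (hK : 1 ≤ K) (R : RegB F J θ H e W kk jj κ c1 φ JF)
    (hc1 : 4 / K ≤ c1) {i j : ℕ} {ψ : ℕ → Nd → ℝ}
    (hfr : Fr F W c1 i j ψ) {c : ℕ} (h1 : 1 ≤ c) (h2 : 2 * i - j ≤ c) (h3 : c < K) (h3' : c ≤ j)
    (ht : Thin F e jj κ c1 c) :
    Rare F.S fun a ω => 4 / 2 ^ F.n a < |Real.sin (φ c a (F.sg c a ω) - ψ a (F.sig i j a ω))| := by
  refine rare_mono (hfr c h1 h2 h3') ?_
  filter_upwards [R.frame c h1 h3 ht] with a ha ω hω hb
  have h4 := Vale.Agent.P122.H540.sin_tri (φ c a (F.sg c a ω)) (ψ a (F.sig i j a ω)) (F.wd c (W c) a ω)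
  have h5 := ha ω hω
  have h6 : (2 : ℝ) ^ (-(c1 / 4 * F.S.L a)) ≤ 1 / 2 ^ F.n a := by
    rw [one_div, ← Real.rpow_natCast, ← Real.rpow_neg (by norm_num)]
    refine Real.rpow_le_rpow_of_exponent_le (by norm_num) ?_
    rw [F.L_eq a]
    push_cast
    have h7 : (0:ℝ) < K := by exact_mod_cast hK
    rw [div_le_iff₀ h7] at hc1
    have h8 : (0:ℝ) ≤ F.n a := Nat.cast_nonneg _
    nlinarith
  have h7 : 4 / (2:ℝ) ^ F.n a = 4 * (1 / 2 ^ F.n a) := by ring
  rw [h7] at hb
  by_contra hcon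
  push Not at hcon
  linarith

/-- **StPch** -/
theorem stPch : StPch := by
  intro K F J θ H e W kk jj κ c1 φ JF hK hc0 R i j u ψ hi hij hj2 hj hu hh hc1 hthin hfr
  have h := H518.cts hK R.toRegA
  have tN : ∀ c, c ≤ j → Tame (F.N c) := fun c hc => h.tre.tN c (hc.trans hj)
  set Z : F.S.RV (ℤ × (Nd × Nd)) := Sys.pr (pD F i j u ψ) (Sys.pr (F.sig i j) (F.N j)) with hZ
  have hZT : Sys.Fn (F.T i) Z := Eventually.of_forall fun a ω ω' _ _ ez => by
    have e1 : F.sig i j a ω = F.sig i j a ω' := congrArg (fun q => q.2.1) ez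
    exact (congrArg Nd.T e1 : (F.sig i j a ω).T = (F.sig i j a ω').T)
  have hsgZ : ∀ c, i ≤ c → c < j → Sys.Fn (F.sg c) (Sys.pr (F.N (c + 1)) Z) := by
    intro c hic hcj
    refine ftr (h.tre.gT c (by omega)) ?_
    refine fpr (ftr (h.tre.TT' hic (by omega)) (ftr hZT (fsnd _ _))) (ffst _ _)
  have hstep : ∀ c, i ≤ c → c < j → F.S.hc (F.N c) (Sys.pr (F.N (c + 1)) Z) ≤
      if c < i + u then 2 / K - 2 * θ c else 1 / K - 2 * θ c + JF c := by
    intro c hic hcj
    by_cases hcu : c < i + u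
    · rw [if_pos hcu]
      exact (hc_mono_right (tN c hcj.le) (hsgZ c hic hcj)).trans (H518.cnt_hc_le (R.B1 c (by omega)))
    · rw [if_neg hcu]
      have ht := hthin c (by omega) hcj.le
      set ν : F.S.RV ℤ := fun a ω => ndg (φ c a (F.sg c a ω)) (F.N c a ω) with hν
      have tν : Tame ν := (tN c hcj.le).mono (Eventually.of_forall fun a ω ω' _ _ ee => by
        have e1 : F.N c a ω = F.N c a ω' := ee
        show ndg (φ c a ((F.N c a ω).sg _)) (F.N c a ω) = ndg (φ c a ((F.N c a ω').sg _)) (F.N c a ω')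
        rw [e1])
      have h1 := hc_le_add (tN c hcj.le) tν (Sys.pr (F.N (c + 1)) Z)
      have h2 : F.S.hc (F.N c) (Sys.pr ν (Sys.pr (F.N (c + 1)) Z)) ≤ F.S.hc (F.N c) (Sys.pr (F.sg c) ν) :=
        hc_mono_right (tN c hcj.le)
          (fpr (ftr (hsgZ c hic hcj) (fsnd _ _)) (ffst _ _))
      have h3 : F.S.hc (F.N c) (Sys.pr (F.sg c) ν) ≤ 1 / K - 2 * θ c + JF c :=
        H518.cnt_hc_le (R.B2 c (by omega) (by omega) ht)
      have h4 : F.S.hc ν (Sys.pr (F.N (c + 1)) Z) = 0 := by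
        refine Vale.Agent.P122.H540.hc_zero_rare (frame_rare hK R hc1 hfr (by omega) (by omega) (by omega) hcj.le ht)
          (Real.log ((2 * ⌈17 + 8 * F.C + 2 * 4⌉₊ + 3 : ℕ) : ℝ)) 4 (by norm_num) ?_
        filter_upwards [ev_n F] with a hn
        have h5 := p_step (F.S.P a) (N := fun c ω => F.N c a ω) (s := F.s a) (n := F.n a) (K := K)
          (C := F.C) (fun ω hω => flg_pth F a ω hω) (F.slp a) (C_nonneg F) hn (i := i) (u := u) (c := c)
          (by omega) (by omega) (fun ω => (F.sig i j a ω, F.N j a ω)) (fun ω => ψ a (F.sig i j a ω))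
          (φ c a) (fun ω ω' _ _ ee => congrArg (fun q => q.1.T) ee)
          (fun ω ω' _ _ ee => congrArg (fun q => ψ a q.1) ee) 4 (by norm_num)
        rw [Vale.Agent.P122.H540.prb_eq]
        refine h5.trans (add_le_add le_rfl ?_)
        exact mul_le_mul_of_nonneg_left (log_bad_le F hK hn) (prE_nonneg _ _)
      linarith
  have h1 := chain_le hij tN hstep
  have h2 : F.S.hc (F.N j) Z = 0 :=
    hc_fn (ftr (fsnd _ _) (fsnd _ _))
  rw [h2, add_zero] at h1
  refine h1.trans (le_of_eq ?_)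
  rw [← sum_Ico_consecutive _ (Nat.le_add_right i u) hu]
  congr 1
  · refine sum_congr rfl fun c hc => ?_
    rw [mem_Ico] at hc
    rw [if_pos hc.2]
  · refine sum_congr rfl fun c hc => ?_
    rw [mem_Ico] at hc
    rw [if_neg (by omega)]

end Vale.Agent.P106.R.E9
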